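import Vale.Agent.N121X.Bridge

open MeasureTheory
open scoped ENNReal

namespace Vale.Agent.Results.P121.A0Infinite

open Vale.Agent.N121X

/-- (1) For every `d ≥ 2` there is an absolutely continuous probability measure with finite
three-marginal Coulomb value none of whose optimal plans is carried by finitely many Borel graphs.
(2) The largest mass on `m` graphs can be `2/3 + a₀ + ⋯ + a_{m-1}` for any nonincreasing `a` of
sum `1/3`, while one sequence of graphs carries all optimal plans. -/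
theorem result :
    (∀ d : ℕ, 2 ≤ d → ∃ μ : Measure (R d), IsProbabilityMeasure μ ∧ μ ≪ volume ∧ value μ < ∞ ∧
      (Optimal μ).Nonempty ∧ ∀ m : ℕ, ∃ r < 1, r ∈ upperBounds (masses μ m)) ∧
    ∀ d : ℕ, 2 ≤ d → ∀ a : ℕ → ℝ≥0∞, Antitone a → ∑' k, a k = 1 / 3 →
      ∃ μ : Measure (R d), IsProbabilityMeasure μ ∧ μ ≪ volume ∧ value μ < ∞ ∧ Carried μ ∧
        ∀ m : ℕ, 1 ≤ m → IsGreatest (masses μ m) (2 / 3 + ∑ k ∈ Finset.range m, a k) :=
  ⟨part2, part3⟩

end Vale.Agent.Results.P121.A0Infinite
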